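import Mathlib

/-!
# P226, leaf GEN-L3 (copy by helper17): the second moment of a coordinate divided by the norm,
for the standard Gaussian of `R^(n+1)`

`E[<g, z>^2 / |g|] = |z|^2 * E|g| / (n + 1)` (rotation invariance of the standard Gaussian).
-/

open MeasureTheory ProbabilityTheory

namespace Vale.Agent.Lib.P226.H17

/-- Integrability of `q ↦ <q, z>^2 / |q|` for the standard Gaussian. -/
theorem integrable_inner_sq_div_norm (n : ℕ) (z : EuclideanSpace ℝ (Fin (n + 1))) :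
    Integrable (fun q => inner ℝ q z ^ 2 / ‖q‖)
      (stdGaussian (EuclideanSpace ℝ (Fin (n + 1)))) := by
  have hnorm : Integrable (fun q : EuclideanSpace ℝ (Fin (n + 1)) => ‖q‖)
      (stdGaussian (EuclideanSpace ℝ (Fin (n + 1)))) :=
    (IsGaussian.integrable_id (μ := stdGaussian (EuclideanSpace ℝ (Fin (n + 1))))).norm
  refine Integrable.mono' (hnorm.const_mul (‖z‖ ^ 2)) ?_ (ae_of_all _ fun q => ?_)
  · exact (((continuous_id.inner continuous_const).pow 2).measurable.div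
      continuous_norm.measurable).aestronglyMeasurable
  · rw [Real.norm_eq_abs, abs_div, abs_pow, abs_norm]
    by_cases hq : q = 0
    · simp [hq]
    · have hpos : 0 < ‖q‖ := norm_pos_iff.2 hq
      rw [div_le_iff₀ hpos]
      have h := abs_real_inner_le_norm q z
      calc |inner ℝ q z| ^ 2 ≤ (‖q‖ * ‖z‖) ^ 2 := pow_le_pow_left₀ (abs_nonneg _) h 2
        _ = ‖z‖ ^ 2 * ‖q‖ * ‖q‖ := by ring

/-- Invariance under linear isometries. -/
theorem jS_invariant (n : ℕ)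
    (U : EuclideanSpace ℝ (Fin (n + 1)) ≃ₗᵢ[ℝ] EuclideanSpace ℝ (Fin (n + 1)))
    (z : EuclideanSpace ℝ (Fin (n + 1))) :
    ∫ q, inner ℝ q (U z) ^ 2 / ‖q‖ ∂(stdGaussian (EuclideanSpace ℝ (Fin (n + 1))))
      = ∫ q, inner ℝ q z ^ 2 / ‖q‖ ∂(stdGaussian (EuclideanSpace ℝ (Fin (n + 1)))) := by
  have hmap : (stdGaussian (EuclideanSpace ℝ (Fin (n + 1)))).map U
      = stdGaussian (EuclideanSpace ℝ (Fin (n + 1))) := stdGaussian_map U
  calc ∫ q, inner ℝ q (U z) ^ 2 / ‖q‖ ∂(stdGaussian (EuclideanSpace ℝ (Fin (n + 1))))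
      = ∫ q, inner ℝ q (U z) ^ 2 / ‖q‖
          ∂((stdGaussian (EuclideanSpace ℝ (Fin (n + 1)))).map U) := by rw [hmap]
    _ = ∫ q, inner ℝ (U q) (U z) ^ 2 / ‖U q‖
          ∂(stdGaussian (EuclideanSpace ℝ (Fin (n + 1)))) :=
        integral_map_equiv U.toHomeomorph.toMeasurableEquiv _
    _ = ∫ q, inner ℝ q z ^ 2 / ‖q‖ ∂(stdGaussian (EuclideanSpace ℝ (Fin (n + 1)))) := by
        simp only [LinearIsometryEquiv.inner_map_map, LinearIsometryEquiv.norm_map]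

/-- The integral depends only on the norm of `z`. -/
theorem jS_norm_eq (n : ℕ) (z z' : EuclideanSpace ℝ (Fin (n + 1))) (h : ‖z‖ = ‖z'‖) :
    ∫ q, inner ℝ q z ^ 2 / ‖q‖ ∂(stdGaussian (EuclideanSpace ℝ (Fin (n + 1))))
      = ∫ q, inner ℝ q z' ^ 2 / ‖q‖ ∂(stdGaussian (EuclideanSpace ℝ (Fin (n + 1)))) := by
  have h1 := jS_invariant n (Submodule.reflection (Submodule.span ℝ {z - z'})ᗮ) z
  rw [Submodule.reflection_sub h] at h1
  exact h1.symm

/-- Homogeneity of degree two. -/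
theorem jS_smul (n : ℕ) (t : ℝ) (z : EuclideanSpace ℝ (Fin (n + 1))) :
    ∫ q, inner ℝ q (t • z) ^ 2 / ‖q‖ ∂(stdGaussian (EuclideanSpace ℝ (Fin (n + 1))))
      = t ^ 2 * ∫ q, inner ℝ q z ^ 2 / ‖q‖ ∂(stdGaussian (EuclideanSpace ℝ (Fin (n + 1)))) := by
  rw [← integral_const_mul]
  refine integral_congr_ae (ae_of_all _ fun q => ?_)
  simp only [real_inner_smul_right]
  ring

/-- The sum over the coordinate directions. -/
theorem jS_sum (n : ℕ) :
    ∑ j : Fin (n + 1), ∫ q, inner ℝ q (EuclideanSpace.single j (1 : ℝ)) ^ 2 / ‖q‖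
        ∂(stdGaussian (EuclideanSpace ℝ (Fin (n + 1))))
      = ∫ q, ‖q‖ ∂(stdGaussian (EuclideanSpace ℝ (Fin (n + 1)))) := by
  rw [← integral_finsetSum _ (fun j _ => integrable_inner_sq_div_norm n _)]
  refine integral_congr_ae (ae_of_all _ fun q => ?_)
  simp only [EuclideanSpace.inner_single_right, one_mul, conj_trivial]
  rw [← Finset.sum_div, ← EuclideanSpace.real_norm_sq_eq]
  by_cases hq : q = 0
  · simp [hq]
  · have hpos : ‖q‖ ≠ 0 := norm_ne_zero_iff.2 hq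
    field_simp

theorem integral_inner_sq_div_norm (n : ℕ) (z : EuclideanSpace ℝ (Fin (n + 1))) :
    ∫ q, inner ℝ q z ^ 2 / ‖q‖ ∂(stdGaussian (EuclideanSpace ℝ (Fin (n + 1))))
      = ‖z‖ ^ 2 / (n + 1) * ∫ q, ‖q‖ ∂(stdGaussian (EuclideanSpace ℝ (Fin (n + 1)))) := by
  have hsum := jS_sum n
  have hall : ∀ j : Fin (n + 1),
      ∫ q, inner ℝ q (EuclideanSpace.single j (1 : ℝ)) ^ 2 / ‖q‖
        ∂(stdGaussian (EuclideanSpace ℝ (Fin (n + 1))))
      = ∫ q, inner ℝ q (EuclideanSpace.single (0 : Fin (n + 1)) (1 : ℝ)) ^ 2 / ‖q‖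
        ∂(stdGaussian (EuclideanSpace ℝ (Fin (n + 1)))) :=
    fun j => jS_norm_eq n _ _ (by simp)
  rw [Finset.sum_congr rfl (fun j _ => hall j), Finset.sum_const, Finset.card_univ,
    Fintype.card_fin, nsmul_eq_mul] at hsum
  have hz : ‖z‖ = ‖(‖z‖ • (EuclideanSpace.single (0 : Fin (n + 1)) (1 : ℝ)))‖ := by
    simp [norm_smul]
  rw [jS_norm_eq n z _ hz, jS_smul, ← hsum]
  push_cast
  have hn : ((n : ℝ) + 1) ≠ 0 := by positivity
  field_simp

end Vale.Agent.Lib.P226.H17
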